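import Mathlib

/-! Averages of unitary representations of finite groups (block D of P260). -/

open scoped ComplexConjugate

namespace Vale.Agent.P260.H117

section avg

variable {H : Type*} [NormedAddCommGroup H] [InnerProductSpace ℂ H]
variable {K : Type*} [AddGroup K] [Fintype K]

/-- average of a finite group of unitary operators -/
noncomputable def avg (τ : K → H ≃ₗᵢ[ℂ] H) : H →L[ℂ] H :=
  ((Fintype.card K : ℂ))⁻¹ • ∑ k, ((τ k).toContinuousLinearEquiv : H →L[ℂ] H)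

theorem avg_apply (τ : K → H ≃ₗᵢ[ℂ] H) (v : H) :
    avg τ v = ((Fintype.card K : ℂ))⁻¹ • ∑ k, τ k v := by
  simp [avg, ContinuousLinearMap.sum_apply]

theorem card_ne : ((Fintype.card K : ℂ)) ≠ 0 := by
  have : Nonempty K := ⟨0⟩
  exact_mod_cast Fintype.card_ne_zero

variable {τ : K → H ≃ₗᵢ[ℂ] H}

theorem avg_fix (hτ : ∀ a b v, τ (a + b) v = τ a (τ b v)) (k : K) (v : H) :
    τ k (avg τ v) = avg τ v := by
  rw [avg_apply, map_smul, map_sum]
  congr 1
  have h1 : ∀ x : K, τ k (τ x v) = τ (k + x) v := fun x => (hτ k x v).symm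
  simp_rw [h1]
  exact Fintype.sum_equiv (Equiv.addLeft k) _ _ fun x => rfl

theorem avg_of_fix {v : H} (hv : ∀ k, τ k v = v) : avg τ v = v := by
  rw [avg_apply]
  simp_rw [hv]
  rw [Finset.sum_const, Finset.card_univ, ← Nat.cast_smul_eq_nsmul ℂ, smul_smul,
    inv_mul_cancel₀ card_ne, one_smul]

theorem avg_idem (hτ : ∀ a b v, τ (a + b) v = τ a (τ b v)) (v : H) :
    avg τ (avg τ v) = avg τ v :=
  avg_of_fix fun k => avg_fix hτ k v

theorem tau_zero (hτ : ∀ a b v, τ (a + b) v = τ a (τ b v)) (v : H) : τ 0 v = v := by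
  have h := hτ 0 0 v
  rw [add_zero] at h
  exact ((τ 0).injective h).symm

theorem inner_tau (hτ : ∀ a b v, τ (a + b) v = τ a (τ b v)) (k : K) (u v : H) :
    inner ℂ (τ k u) v = inner ℂ u (τ (-k) v) := by
  have h : τ k (τ (-k) v) = v := by
    rw [← hτ, add_neg_cancel, tau_zero hτ]
  conv_lhs => rw [← h]
  exact (τ k).inner_map_map _ _

theorem avg_symm (hτ : ∀ a b v, τ (a + b) v = τ a (τ b v)) (u v : H) :
    inner ℂ (avg τ u) v = inner ℂ u (avg τ v) := by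
  rw [avg_apply, avg_apply, inner_smul_left, inner_smul_right, sum_inner, inner_sum]
  have h1 : ∀ x : K, inner ℂ (τ x u) v = inner ℂ u (τ (-x) v) := fun x => inner_tau hτ x u v
  simp_rw [h1]
  rw [map_inv₀, Complex.conj_natCast]
  congr 1
  exact Fintype.sum_equiv (Equiv.neg K) _ _ fun x => rfl

theorem norm_avg_sq (hτ : ∀ a b v, τ (a + b) v = τ a (τ b v)) (v : H) :
    inner ℂ (avg τ v) v = ((‖avg τ v‖ ^ 2 : ℝ) : ℂ) := by
  have h : inner ℂ (avg τ v) v = inner ℂ (avg τ v) (avg τ v) := by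
    conv_lhs => rw [← avg_idem hτ v]
    exact avg_symm hτ _ _
  rw [h, inner_self_eq_norm_sq_to_K]
  norm_cast

theorem norm_avg_sq' (hτ : ∀ a b v, τ (a + b) v = τ a (τ b v)) (v : H) :
    inner ℂ v (avg τ v) = ((‖avg τ v‖ ^ 2 : ℝ) : ℂ) := by
  rw [← avg_symm hτ, norm_avg_sq hτ]

theorem norm_sub_avg_sq (hτ : ∀ a b v, τ (a + b) v = τ a (τ b v)) (v : H) :
    ‖v - avg τ v‖ ^ 2 = ‖v‖ ^ 2 - ‖avg τ v‖ ^ 2 := by
  have h := @norm_sub_sq ℂ H _ _ _ v (avg τ v)
  rw [norm_avg_sq' hτ] at h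
  rw [h]
  have : RCLike.re (((‖avg τ v‖ ^ 2 : ℝ) : ℂ)) = ‖avg τ v‖ ^ 2 := by
    exact Complex.ofReal_re _
  rw [this]; ring

theorem norm_sub_avg_le {v : H} {δ : ℝ} (hv : ∀ k, ‖v - τ k v‖ ≤ δ) : ‖v - avg τ v‖ ≤ δ := by
  have hc : (0 : ℝ) < Fintype.card K := by
    have : Nonempty K := ⟨0⟩
    exact_mod_cast Fintype.card_pos
  have h : v - avg τ v = ((Fintype.card K : ℂ))⁻¹ • ∑ k, (v - τ k v) := by
    rw [Finset.sum_sub_distrib, smul_sub, ← avg_apply, Finset.sum_const, Finset.card_univ,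
      ← Nat.cast_smul_eq_nsmul ℂ, smul_smul, inv_mul_cancel₀ card_ne, one_smul]
  rw [h, norm_smul, norm_inv, Complex.norm_natCast]
  have h2 : ‖∑ k, (v - τ k v)‖ ≤ Fintype.card K * δ := by
    refine (norm_sum_le _ _).trans ((Finset.sum_le_sum fun k _ => hv k).trans ?_)
    rw [Finset.sum_const, Finset.card_univ, nsmul_eq_mul]
  calc (Fintype.card K : ℝ)⁻¹ * ‖∑ k, (v - τ k v)‖
      ≤ (Fintype.card K : ℝ)⁻¹ * (Fintype.card K * δ) := by gcongr
    _ = δ := by field_simp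

end avg

end Vale.Agent.P260.H117
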