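import Vale.Agent.P260.H117.Grp
import Vale.Agent.P260.Defs

/-! Block D of P260, part 1: an infinite group with angle data has no almost invariant vectors in
`ℓ²`. -/

set_option linter.unusedSectionVars false

open scoped commutatorElement

namespace Vale.Agent.P260.H117

open Vale.Agent.P260 (AngleData)

variable {l q : ℕ} [Fact q.Prime] {Q : Type*} [Group Q]

theorem twoRel (D : AngleData q l Q) {a b : Fin 16} (hab : a ≠ b) :
    TwoRel q (D.x a) (D.x b) where
  xp := D.pow a
  yp := D.pow b
  xc := D.comm a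
  yc := D.comm b
  zx := fun i j k => D.triple a b i j k hab
  zy := fun i j k => by
    have h := D.triple b a j i k hab.symm
    rw [← commutatorElement_inv]
    exact h.inv_left

/-- the spectral gap on `ℓ²(Q)` -/
theorem exists_gap [Infinite Q] (D : AngleData q l Q) :
    ∃ E : Finset Q, ∀ (δ : ℝ) (v : L2 Q), (∀ g ∈ E, ‖v - U g v‖ ≤ δ) →
      ‖v‖ ^ 2 ≤ 256 * δ ^ 2 := by
  classical
  have hrho := fun a => exists_rho (q := q) (D.x a) (D.pow a) (D.comm a)
  choose ρ hρ0 hρ hρ1 using hrho
  set τ : Fin 16 → (Fin l → ZMod q) → (L2 Q ≃ₗᵢ[ℂ] L2 Q) := fun a u => U (ρ a u) with hτ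
  have hτadd : ∀ a u w v, τ a (u + w) v = τ a u (τ a w v) := by
    intro a u w v
    simp only [hτ]
    rw [hρ, U_mul]
  have hone : ∀ v : L2 Q, U (1 : Q) v = v := fun v => by ext x; simp
  refine ⟨Finset.univ.image fun p : Fin 16 × (Fin l → ZMod q) => ρ p.1 p.2, fun δ v hv => ?_⟩
  have hpair : ∀ a b, a ≠ b → ∀ x : L2 Q,
      -(1 / 16 : ℝ) * (‖x - avg (τ a) x‖ ^ 2 + ‖x - avg (τ b) x‖ ^ 2) ≤
      2 * RCLike.re (inner ℂ (x - avg (τ a) x) (x - avg (τ b) x)) := by
    intro a b hab x
    have hT := twoRel D hab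
    obtain ⟨c, hc0, hc, hc1⟩ := exists_rho (q := q)
      (fun p : Fin l × Fin l => ⁅D.x a p.1, D.x b p.2⁆) (fun p => hT.zp _ _)
      (fun p p' => hT.zz _ _ _ _)
    obtain ⟨h1, h2, h3⟩ := hT.rel (hρ0 a) (hρ a) (hρ1 a) (hρ0 b) (hρ b) (hρ1 b) hc0 hc hc1
    have hcomm : ∀ (g h : Q), Commute g h → ∀ v : L2 Q, U g (U h v) = U h (U g v) := by
      intro g h hgh v
      rw [← U_mul, ← U_mul, hgh.eq]
    have PD : PairData (τ a) (τ b) (fun M => U (c M)) := by
      refine ⟨hτadd a, hτadd b, fun M N v => ?_, fun M k v => ?_, fun M k v => ?_,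
        fun u w v => ?_, fun B hB hM => ?_⟩
      · rw [hc, U_mul]
      · exact hcomm _ _ (h1 M k) v
      · exact hcomm _ _ (h2 M k) v
      · show U (ρ a u) (U (ρ b w) v) = U (c (tens u w)) (U (ρ b w) (U (ρ a u) v))
        rw [← U_mul, h3, U_mul, U_mul]
      · apply card_rad
        refine code_of hc0 hc hc1 (D.code a b hab) B hB fun M hM1 => hM M fun v => ?_
        show U (c M) v = v
        rw [hM1, hone]
    exact pair_ineq PD (Fact.out : q.Prime).two_le x
  have hinj : ∀ v : L2 Q, (∀ a, avg (τ a) v = v) → v = 0 := by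
    intro v hv
    apply eq_zero_of_inv
    have h1 : ∀ a i, U (D.x a i) v = v := by
      intro a i
      have h2 := avg_fix (hτadd a) (Pi.single i 1) v
      rw [hv] at h2
      have h3 : τ a (Pi.single i 1) v = U (D.x a i) v := by
        show U (ρ a (Pi.single i 1)) v = _
        rw [hρ1]
      rw [← h3]; exact h2
    let S : Subgroup Q :=
      { carrier := {g | U g v = v}
        mul_mem' := fun {g h} hg hh => by
          show U (g * h) v = v
          rw [U_mul, hh, hg]
        one_mem' := hone v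
        inv_mem' := fun {g} hg => by
          show U g⁻¹ v = v
          have h4 : U g v = v := hg
          conv_lhs => rw [← h4]
          rw [← U_mul, inv_mul_cancel, hone] }
    have hS : S = ⊤ := by
      rw [eq_top_iff, ← D.gen, Subgroup.closure_le]
      rintro _ ⟨p, rfl⟩
      exact h1 p.1 p.2
    intro g
    have : g ∈ S := by rw [hS]; trivial
    exact this
  have hgap := gap (P := fun a => avg (τ a)) (fun a v => avg_idem (hτadd a) v)
    (fun a u v => avg_symm (hτadd a) u v) hpair hinj v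
  have hle : ∀ a, ‖v - avg (τ a) v‖ ≤ δ := by
    intro a
    apply norm_sub_avg_le
    intro k
    apply hv
    exact Finset.mem_image_of_mem _ (Finset.mem_univ (a, k))
  have h5 : ∑ a : Fin 16, ‖v - avg (τ a) v‖ ^ 2 ≤ ∑ _a : Fin 16, δ ^ 2 := by
    refine Finset.sum_le_sum fun a _ => ?_
    have := hle a
    have h0 := norm_nonneg (v - avg (τ a) v)
    nlinarith
  rw [Finset.sum_const, Finset.card_univ, Fintype.card_fin, nsmul_eq_mul] at h5
  push_cast at h5
  linarith

end Vale.Agent.P260.H117
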