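import Vale.Agent.P260.H117.D1

/-! Block D of P260, part 2: Følner sets give almost invariant vectors in `ℓ²` of quotients of
subgroups; the theorem `blockD`. -/

set_option linter.unusedSectionVars false

namespace Vale.Agent.P260.H117

open Vale.Agent.P260 (AngleData Folner)

variable {G Q : Type*} [Group G] [Group Q]

/-- an equivariant map from `G` to a quotient of the subgroup `S`. -/
theorem exists_phi (S : Subgroup G) (f : S →* Q) :
    ∃ φ : G → Q, ∀ (s : S) (x : G), φ (s * x) = f s * φ x := by
  classical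
  let t : G → G := fun x => (Quotient.mk (QuotientGroup.rightRel S) x).out
  have ht : ∀ x, x * (t x)⁻¹ ∈ S := by
    intro x
    have h1 : QuotientGroup.rightRel S (t x) x := Quotient.exact (Quotient.out_eq _)
    rwa [QuotientGroup.rightRel_apply] at h1
  have hts : ∀ (s : S) (x : G), t (s * x) = t x := by
    intro s x
    have h1 : Quotient.mk (QuotientGroup.rightRel S) ((s : G) * x) =
        Quotient.mk (QuotientGroup.rightRel S) x := by
      apply Quotient.sound
      show QuotientGroup.rightRel S _ _
      rw [QuotientGroup.rightRel_apply, mul_inv_rev, ← mul_assoc, mul_inv_cancel, one_mul]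
      exact S.inv_mem s.2
    simp only [t, h1]
  refine ⟨fun x => f ⟨x * (t x)⁻¹, ht x⟩, fun s x => ?_⟩
  show f _ = f s * f _
  rw [← map_mul]
  congr 1
  apply Subtype.ext
  show (s : G) * x * (t (s * x))⁻¹ = s * (x * (t x)⁻¹)
  rw [hts, mul_assoc]

open Classical in
theorem exists_almost (hF : Folner G) (S : Subgroup G) (f : S →* Q)
    (hf : Function.Surjective f) (E : Finset Q) {ε : ℝ} (hε : 0 < ε) :
    ∃ v : L2 Q, v ≠ 0 ∧ ∀ g ∈ E, ‖v - U g v‖ ^ 2 ≤ ε * ‖v‖ ^ 2 := by
  obtain ⟨φ, hφ⟩ := exists_phi S f
  choose s hs using hf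
  obtain ⟨F, hFne, hFE⟩ := hF (E.image fun g => (s g : G)) (ε / 2) (by positivity)
  set n : Finset G → Q → ℕ := fun A y => (A.filter fun x => φ x = y).card with hn
  have hn0 : ∀ A y, y ∉ A.image φ → n A y = 0 := by
    intro A y hy
    simp only [hn, Finset.card_eq_zero]
    rw [Finset.filter_eq_empty_iff]
    intro x hx hxy
    exact hy (Finset.mem_image.2 ⟨x, hx, hxy⟩)
  have hsum : ∀ (A : Finset G) (T : Finset Q), A.image φ ⊆ T → ∑ y ∈ T, n A y = A.card := by
    intro A T hT
    rw [← Finset.sum_subset hT fun y _ hy => hn0 A y hy]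
    exact (Finset.card_eq_sum_card_image φ A).symm
  set v : Q →₀ ℝ := Finsupp.onFinset (F.image φ) (fun y => Real.sqrt (n F y)) (by
    intro y hy
    by_contra h
    apply hy
    rw [hn0 F y h]; simp) with hv
  have hvy : ∀ y, v y = Real.sqrt (n F y) := fun y => rfl
  have hnorm : ‖emb v‖ ^ 2 = F.card := by
    rw [norm_sq_L2, tsum_eq_sum (s := F.image φ)]
    · rw [← hsum F _ (Finset.Subset.refl _)]
      push_cast
      refine Finset.sum_congr rfl fun y _ => ?_
      rw [emb_apply, hvy, Complex.norm_real, Real.norm_of_nonneg (Real.sqrt_nonneg _),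
        Real.sq_sqrt (by positivity)]
    · intro y hy
      rw [emb_apply, hvy, hn0 F y hy]; simp
  have hpos : (0 : ℝ) < F.card := by exact_mod_cast hFne.card_pos
  refine ⟨emb v, ?_, fun g hg => ?_⟩
  · intro h0
    rw [h0, norm_zero] at hnorm
    norm_num at hnorm
    rw [← hnorm] at hpos
    exact lt_irrefl _ hpos
  set F' := F.image fun x => (s g : G) * x with hF'
  have hcard : F'.card = F.card :=
    Finset.card_image_of_injective _ (mul_right_injective (s g : G))
  have hE := hFE (s g : G) (Finset.mem_image_of_mem _ hg)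
  rw [← hF'] at hE
  -- counts of the translate
  have hn' : ∀ y, n F (g⁻¹ * y) = n F' y := by
    intro y
    simp only [hn, hF']
    rw [Finset.filter_image, Finset.card_image_of_injective _ (mul_right_injective (s g : G))]
    congr 1
    ext x
    simp only [Finset.mem_filter, and_congr_right_iff]
    intro _
    rw [hφ, hs, eq_inv_mul_iff_mul_eq]
  set D := (F' \ F) ∪ (F \ F') with hD
  have hDc : (D.card : ℝ) ≤ ε * F.card := by
    have h1 : D.card ≤ (F' \ F).card + (F \ F').card := Finset.card_union_le _ _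
    have h2 : (F \ F').card = (F' \ F).card := Finset.card_sdiff_comm hcard.symm
    rw [h2] at h1
    have h3 : (D.card : ℝ) ≤ (F' \ F).card + (F' \ F).card := by exact_mod_cast h1
    linarith
  have habs : ∀ y, |(n F y : ℝ) - n F' y| ≤ n D y := by
    intro y
    have h1 : n F y ≤ n F' y + n D y := by
      simp only [hn]
      rw [← Finset.card_union_add_card_inter]
      refine le_trans ?_ (Nat.le_add_right _ _)
      apply Finset.card_le_card
      intro x hx
      rw [Finset.mem_filter] at hx
      rw [Finset.mem_union, Finset.mem_filter, Finset.mem_filter]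
      by_cases h : x ∈ F'
      · exact Or.inl ⟨h, hx.2⟩
      · exact Or.inr ⟨Finset.mem_union_right _ (Finset.mem_sdiff.2 ⟨hx.1, h⟩), hx.2⟩
    have h2 : n F' y ≤ n F y + n D y := by
      simp only [hn]
      rw [← Finset.card_union_add_card_inter]
      refine le_trans ?_ (Nat.le_add_right _ _)
      apply Finset.card_le_card
      intro x hx
      rw [Finset.mem_filter] at hx
      rw [Finset.mem_union, Finset.mem_filter, Finset.mem_filter]
      by_cases h : x ∈ F
      · exact Or.inl ⟨h, hx.2⟩
      · exact Or.inr ⟨Finset.mem_union_left _ (Finset.mem_sdiff.2 ⟨hx.1, h⟩), hx.2⟩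
    have h1' : (n F y : ℝ) ≤ n F' y + n D y := by exact_mod_cast h1
    have h2' : (n F' y : ℝ) ≤ n F y + n D y := by exact_mod_cast h2
    rw [abs_le]; constructor <;> linarith
  have hval : ∀ y, ‖(emb v - U g (emb v)) y‖ ^ 2 ≤ n D y := by
    intro y
    have h1 : (emb v - U g (emb v)) y = ((v y - v (g⁻¹ * y) : ℝ) : ℂ) := by
      rw [lp.coeFn_sub, Pi.sub_apply, U_apply, emb_apply, emb_apply]
      push_cast; rfl
    rw [h1, Complex.norm_real, Real.norm_eq_abs, sq_abs, hvy, hvy, hn']
    have hsq : ∀ a b : ℝ, 0 ≤ a → 0 ≤ b → (Real.sqrt a - Real.sqrt b) ^ 2 ≤ |a - b| := by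
      intro a b ha hb
      have e1 := Real.sq_sqrt ha
      have e2 := Real.sq_sqrt hb
      have e3 := Real.sqrt_nonneg a
      have e4 := Real.sqrt_nonneg b
      rcases le_total (Real.sqrt b) (Real.sqrt a) with h | h
      · refine le_trans ?_ (le_abs_self _)
        nlinarith
      · refine le_trans ?_ (neg_le_abs _)
        nlinarith
    exact (hsq _ _ (by positivity) (by positivity)).trans (habs y)
  calc ‖emb v - U g (emb v)‖ ^ 2 = ∑' y, ‖(emb v - U g (emb v)) y‖ ^ 2 := norm_sq_L2 _
    _ = ∑ y ∈ D.image φ, ‖(emb v - U g (emb v)) y‖ ^ 2 := by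
        apply tsum_eq_sum
        intro y hy
        have := hval y
        rw [hn0 D y hy, Nat.cast_zero] at this
        exact le_antisymm this (by positivity)
    _ ≤ ∑ y ∈ D.image φ, (n D y : ℝ) := Finset.sum_le_sum fun y _ => hval y
    _ = D.card := by
        rw [← Nat.cast_sum, hsum D _ (Finset.Subset.refl _)]
    _ ≤ ε * F.card := hDc
    _ = ε * ‖emb v‖ ^ 2 := by rw [hnorm]

/-- **Block D.** A quotient with angle data of a subgroup of an amenable group is finite. -/
theorem blockD (q : ℕ) [Fact q.Prime] (l : ℕ) (G : Type*) [Group G] (S : Subgroup G)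
    (Q : Type*) [Group Q] (f : S →* Q) (hf : Function.Surjective f) (hF : Folner G)
    (D : AngleData q l Q) : Finite Q := by
  by_contra hfin
  have : Infinite Q := not_finite_iff_infinite.1 hfin
  obtain ⟨E, hE⟩ := exists_gap D
  obtain ⟨v, hv0, hv⟩ := exists_almost hF S f hf E (ε := 1 / 512) (by norm_num)
  have hvn : 0 < ‖v‖ := norm_pos_iff.2 hv0
  have h1 := hE (Real.sqrt (1 / 512 * ‖v‖ ^ 2)) v (fun g hg => by
    apply Real.le_sqrt_of_sq_le
    exact hv g hg)
  rw [Real.sq_sqrt (by positivity)] at h1
  nlinarith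

/-- the literal form of `BlockD` of the Spec -/
theorem blockD_lit : ∀ (q : ℕ) [Fact q.Prime] (l : ℕ) (G : Type) [Group G] (S : Subgroup G)
    (Q : Type) [Group Q] (f : S →* Q), Function.Surjective f → Folner G → AngleData q l Q →
    Finite Q :=
  fun q _ l G _ S Q _ f hf hF D => blockD q l G S Q f hf hF D

end Vale.Agent.P260.H117
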