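import Vale.Agent.P260.H117.Pair

/-! The spectral gap of the sum of 16 projections with pairwise small angles (block D). -/

open scoped ComplexConjugate

set_option linter.unusedSectionVars false

namespace Vale.Agent.P260.H117

variable {H : Type*} [NormedAddCommGroup H] [InnerProductSpace ℂ H] [CompleteSpace H]

/-- a positive operator with `T² ≥ c T` and trivial kernel is `≥ c`. -/
theorem gap_of_sq {T : H →L[ℂ] H} (hT : 0 ≤ T) {c : ℝ}
    (h : ∀ v, c * RCLike.re (inner ℂ (T v) v) ≤ ‖T v‖ ^ 2) (hker : ∀ v, T v = 0 → v = 0) (v : H) :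
    c * ‖v‖ ^ 2 ≤ RCLike.re (inner ℂ (T v) v) := by
  set S := CFC.sqrt T with hS
  have hSS : S * S = T := CFC.sqrt_mul_sqrt_self T hT
  have hS0 : 0 ≤ S := CFC.sqrt_nonneg T
  have hSp : S.IsPositive := (ContinuousLinearMap.nonneg_iff_isPositive S).1 hS0
  have hSa : IsSelfAdjoint S := hSp.isSelfAdjoint
  have hTv : ∀ w, T w = S (S w) := fun w => by rw [← hSS]; rfl
  have hsym : ∀ x y, inner ℂ (S x) y = inner ℂ x (S y) := fun x y => hSp.isSymmetric x y
  have hre : ∀ w, RCLike.re (inner ℂ (T w) w) = ‖S w‖ ^ 2 := by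
    intro w
    rw [hTv, hsym, inner_self_eq_norm_sq (𝕜 := ℂ)]
  have hcl : IsClosed {w : H | c * ‖w‖ ^ 2 ≤ ‖S w‖ ^ 2} :=
    isClosed_le (by fun_prop) (by fun_prop)
  have hden : DenseRange S := by
    have h1 : (LinearMap.range S.toLinearMap)ᗮ = ⊥ := by
      rw [Submodule.eq_bot_iff]
      intro x hx
      rw [Submodule.mem_orthogonal] at hx
      apply hker
      rw [hTv]
      have h2 : S x = 0 := by
        have h3 := hx (S (S x)) ⟨S x, rfl⟩
        rw [hsym] at h3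
        exact inner_self_eq_zero.1 h3
      rw [h2, map_zero]
    have h2 := (Submodule.topologicalClosure_eq_top_iff).2 h1
    intro x
    have h3 : x ∈ (LinearMap.range S.toLinearMap).topologicalClosure := by
      rw [h2]; trivial
    exact h3
  have hall : ∀ w : H, c * ‖w‖ ^ 2 ≤ ‖S w‖ ^ 2 := by
    intro w
    have h1 : w ∈ closure (Set.range S) := hden w
    have h2 : Set.range S ⊆ {w : H | c * ‖w‖ ^ 2 ≤ ‖S w‖ ^ 2} := by
      rintro _ ⟨x, rfl⟩
      have h3 := h x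
      rw [hre, hTv] at h3
      exact h3
    exact closure_minimal h2 hcl h1
  rw [hre]
  exact hall v

/-- 16 projections with pairwise angle `≤ 1/16` and no common fixed vector have a gap. -/
theorem gap {P : Fin 16 → H →L[ℂ] H} (hidem : ∀ a v, P a (P a v) = P a v)
    (hsymm : ∀ a u v, inner ℂ (P a u) v = inner ℂ u (P a v))
    (hpair : ∀ a b, a ≠ b → ∀ x, -(1 / 16 : ℝ) * (‖x - P a x‖ ^ 2 + ‖x - P b x‖ ^ 2) ≤
      2 * RCLike.re (inner ℂ (x - P a x) (x - P b x)))
    (hinj : ∀ v, (∀ a, P a v = v) → v = 0) (v : H) :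
    (1 / 16 : ℝ) * ‖v‖ ^ 2 ≤ ∑ a, ‖v - P a v‖ ^ 2 := by
  set T : H →L[ℂ] H := ∑ a, (ContinuousLinearMap.id ℂ H - P a) with hT
  have hTv : ∀ v, T v = ∑ a, (v - P a v) := by
    intro v
    rw [hT, sum_apply]
    rfl
  have hin : ∀ v a, inner ℂ (v - P a v) v = ((‖v - P a v‖ ^ 2 : ℝ) : ℂ) := by
    intro v a
    have h1 : inner ℂ (v - P a v) (P a v) = 0 := by
      rw [← hsymm, map_sub, hidem, sub_self, inner_zero_left]
    have h2 : inner ℂ (v - P a v) v = inner ℂ (v - P a v) (v - P a v) := by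
      rw [inner_sub_right, h1, sub_zero]
    rw [h2, inner_self_eq_norm_sq_to_K]
    norm_cast
  have hre : ∀ v, inner ℂ (T v) v = ((∑ a, ‖v - P a v‖ ^ 2 : ℝ) : ℂ) := by
    intro v
    rw [hTv, sum_inner]
    simp_rw [hin]
    push_cast
    rfl
  have hre' : ∀ v, RCLike.re (inner ℂ (T v) v) = ∑ a, ‖v - P a v‖ ^ 2 := by
    intro v; rw [hre]; exact Complex.ofReal_re _
  have hpos : 0 ≤ T := by
    rw [ContinuousLinearMap.nonneg_iff_isPositive]
    refine ⟨?_, fun x => ?_⟩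
    · intro x y
      show inner ℂ (T x) y = inner ℂ x (T y)
      rw [hTv, hTv, sum_inner, inner_sum]
      refine Finset.sum_congr rfl fun a _ => ?_
      rw [inner_sub_left, inner_sub_right, hsymm]
    · rw [ContinuousLinearMap.reApplyInnerSelf_apply, hre']
      positivity
  rw [← hre' v]
  refine gap_of_sq hpos (fun x => ?_) (fun x hx => ?_) v
  · rw [hre']
    set w : Fin 16 → H := fun a => x - P a x with hw
    have h1 : ‖T x‖ ^ 2 = ∑ a, ∑ b, RCLike.re (inner ℂ (w a) (w b)) := by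
      rw [← inner_self_eq_norm_sq (𝕜 := ℂ), hTv, sum_inner, map_sum]
      refine Finset.sum_congr rfl fun a _ => ?_
      rw [inner_sum, map_sum]
    have h2 : ∀ a, ∑ b, RCLike.re (inner ℂ (w a) (w b)) =
        ‖w a‖ ^ 2 + ∑ b ∈ Finset.univ.erase a, RCLike.re (inner ℂ (w a) (w b)) := by
      intro a
      rw [← Finset.add_sum_erase _ _ (Finset.mem_univ a), inner_self_eq_norm_sq (𝕜 := ℂ)]
    have h3 : ∀ a, -(1 / 32 : ℝ) * (15 * ‖w a‖ ^ 2 + ∑ b ∈ Finset.univ.erase a, ‖w b‖ ^ 2) ≤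
        ∑ b ∈ Finset.univ.erase a, RCLike.re (inner ℂ (w a) (w b)) := by
      intro a
      have h4 : ∑ b ∈ Finset.univ.erase a, (-(1 / 32 : ℝ) * (‖w a‖ ^ 2 + ‖w b‖ ^ 2)) ≤
          ∑ b ∈ Finset.univ.erase a, RCLike.re (inner ℂ (w a) (w b)) := by
        refine Finset.sum_le_sum fun b hb => ?_
        have := hpair a b (Ne.symm (Finset.ne_of_mem_erase hb)) x
        linarith
      rw [← Finset.mul_sum, Finset.sum_add_distrib, Finset.sum_const,
        Finset.card_erase_of_mem (Finset.mem_univ a), Finset.card_univ, Fintype.card_fin,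
        nsmul_eq_mul] at h4
      norm_num at h4 ⊢
      exact h4
    have h5 : ∀ a, ∑ b ∈ Finset.univ.erase a, ‖w b‖ ^ 2 = (∑ b, ‖w b‖ ^ 2) - ‖w a‖ ^ 2 := by
      intro a
      rw [← Finset.add_sum_erase _ _ (Finset.mem_univ a)]
      ring
    have h6 : ∑ a, (‖w a‖ ^ 2 + -(1 / 32 : ℝ) * (15 * ‖w a‖ ^ 2 +
        ((∑ b, ‖w b‖ ^ 2) - ‖w a‖ ^ 2))) ≤ ‖T x‖ ^ 2 := by
      rw [h1]
      refine Finset.sum_le_sum fun a _ => ?_
      rw [h2]
      have := h3 a
      rw [h5] at this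
      linarith
    have h7 : ∑ a, (‖w a‖ ^ 2 + -(1 / 32 : ℝ) * (15 * ‖w a‖ ^ 2 +
        ((∑ b, ‖w b‖ ^ 2) - ‖w a‖ ^ 2))) = 1 / 16 * ∑ a, ‖w a‖ ^ 2 := by
      rw [Finset.sum_add_distrib, ← Finset.mul_sum, Finset.sum_add_distrib,
        Finset.sum_sub_distrib, ← Finset.mul_sum, Finset.sum_const, Finset.card_univ,
        Fintype.card_fin, nsmul_eq_mul]
      push_cast
      ring
    rw [h7] at h6
    exact h6
  · apply hinj
    have h1 : ∑ a, ‖x - P a x‖ ^ 2 = 0 := by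
      rw [← hre', hx, inner_zero_left, map_zero]
    intro a
    have h2 := (Finset.sum_eq_zero_iff_of_nonneg (fun a _ => by positivity)).1 h1 a
      (Finset.mem_univ a)
    have h3 : ‖x - P a x‖ = 0 := by simpa using h2
    exact (sub_eq_zero.1 (norm_eq_zero.1 h3)).symm

end Vale.Agent.P260.H117
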