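import Mathlib

/-! The left regular representation on `ℓ²(Q)` (block D of P260). -/

open scoped ComplexConjugate ENNReal

set_option linter.unusedSectionVars false

namespace Vale.Agent.P260.H117

noncomputable section

variable {Q : Type*} [Group Q]

/-- the Hilbert space `ℓ²(Q)` -/
abbrev L2 (Q : Type*) := lp (fun _ : Q => ℂ) 2

theorem memℓp_shift (g : Q) {f : Q → ℂ} (hf : Memℓp f 2) : Memℓp (fun x => f (g⁻¹ * x)) 2 := by
  rw [memℓp_gen_iff (by norm_num)] at hf ⊢
  exact (Equiv.mulLeft g⁻¹).summable_iff.2 hf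

/-- translation as a function on `ℓ²(Q)` -/
def shift (g : Q) (f : L2 Q) : L2 Q := ⟨fun x => f (g⁻¹ * x), memℓp_shift g f.2⟩

@[simp] theorem shift_apply (g : Q) (f : L2 Q) (x : Q) : shift g f x = f (g⁻¹ * x) := rfl

theorem shift_mul (g h : Q) (f : L2 Q) : shift (g * h) f = shift g (shift h f) := by
  ext x
  simp [mul_assoc]

theorem shift_one (f : L2 Q) : shift 1 f = f := by
  ext x
  simp

theorem norm_shift (g : Q) (f : L2 Q) : ‖shift g f‖ = ‖f‖ := by
  rw [lp.norm_eq_tsum_rpow (by norm_num), lp.norm_eq_tsum_rpow (by norm_num)]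
  congr 1
  exact (Equiv.mulLeft g⁻¹).tsum_eq (fun x => ‖f x‖ ^ (2 : ℝ≥0∞).toReal)

/-- translation as a unitary operator -/
def U (g : Q) : L2 Q ≃ₗᵢ[ℂ] L2 Q where
  toFun := shift g
  map_add' := fun f h => by ext x; simp
  map_smul' := fun c f => by ext x; simp
  invFun := shift g⁻¹
  left_inv := fun f => by rw [← shift_mul, inv_mul_cancel, shift_one]
  right_inv := fun f => by rw [← shift_mul, mul_inv_cancel, shift_one]
  norm_map' := norm_shift g

@[simp] theorem U_apply (g : Q) (f : L2 Q) (x : Q) : U g f x = f (g⁻¹ * x) := rfl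

theorem U_mul (g h : Q) (f : L2 Q) : U (g * h) f = U g (U h f) := shift_mul g h f

/-- no invariant vectors if `Q` is infinite -/
theorem eq_zero_of_inv [Infinite Q] (f : L2 Q) (hf : ∀ g, U g f = f) : f = 0 := by
  have h1 : ∀ x, f x = f 1 := by
    intro x
    have h2 := congrArg (fun F : L2 Q => F x) (hf x)
    simp only [U_apply, inv_mul_cancel] at h2
    exact h2.symm
  have h2 : Summable fun x => ‖f x‖ ^ (2 : ℝ≥0∞).toReal :=
    (memℓp_gen_iff (by norm_num)).1 f.2
  simp_rw [h1] at h2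
  have h3 := (summable_const_iff _).1 h2
  have h4 : f 1 = 0 := by
    have h5 : ‖f 1‖ = 0 := by
      rw [Real.rpow_eq_zero (norm_nonneg _) (by norm_num)] at h3
      exact h3
    exact norm_eq_zero.1 h5
  ext x
  rw [h1, h4]
  rfl

theorem memℓp_emb (v : Q →₀ ℝ) : Memℓp (fun x => (v x : ℂ)) 2 := by
  rw [memℓp_gen_iff (by norm_num)]
  apply summable_of_finite_support
  refine v.finite_support.subset fun x hx => ?_
  rw [Function.mem_support] at hx ⊢
  intro h
  apply hx
  rw [h]
  norm_num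

/-- embedding of finitely supported real functions -/
def emb (v : Q →₀ ℝ) : L2 Q := ⟨fun x => (v x : ℂ), memℓp_emb v⟩

@[simp] theorem emb_apply (v : Q →₀ ℝ) (x : Q) : emb v x = (v x : ℂ) := rfl

theorem norm_sq_L2 (f : L2 Q) : ‖f‖ ^ 2 = ∑' x, ‖f x‖ ^ 2 := by
  have h := lp.norm_rpow_eq_tsum (p := 2) (by norm_num) f
  have e : (2 : ℝ≥0∞).toReal = ((2 : ℕ) : ℝ) := by norm_num
  rw [e] at h
  simp_rw [Real.rpow_natCast] at h
  exact h

end

end Vale.Agent.P260.H117
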