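import Vale.Agent.P260.H117.Gap
import Vale.Agent.P260.H117.L2

/-! From the relations on generators to the pair data (block D of P260). -/

set_option linter.unusedSectionVars false

open scoped commutatorElement

namespace Vale.Agent.P260.H117

section pi

variable {ι : Type*} [Fintype ι] [DecidableEq ι] {q : ℕ} [NeZero q]

/-- induction on `(ZMod q)^ι` -/
theorem pi_induction {P : (ι → ZMod q) → Prop} (h0 : P 0) (hadd : ∀ u v, P u → P v → P (u + v))
    (h1 : ∀ i, P (Pi.single i 1)) (u : ι → ZMod q) : P u := by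
  have h2 : ∀ i (n : ℕ), P (Pi.single i (n : ZMod q)) := by
    intro i n
    induction n with
    | zero => simpa using h0
    | succ n ih =>
      push_cast
      rw [Pi.single_add]
      exact hadd _ _ ih (h1 i)
  have h3 : ∀ i (c : ZMod q), P (Pi.single i c) := by
    intro i c
    have := h2 i c.val
    rwa [ZMod.natCast_zmod_val] at this
  have h4 : ∀ s : Finset ι, P (∑ i ∈ s, Pi.single i (u i)) := by
    intro s
    induction s using Finset.induction_on with
    | empty => simpa using h0
    | insert i s hi ih =>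
      rw [Finset.sum_insert hi]
      exact hadd _ _ (h3 i _) ih
  have h5 := h4 Finset.univ
  rwa [Finset.univ_sum_single] at h5

variable {Q : Type*} [Group Q]

/-- the homomorphism from `(ZMod q)^ι` given by commuting elements of order dividing `q` -/
theorem exists_rho (y : ι → Q) (hy : ∀ i, y i ^ q = 1) (hc : ∀ i j, Commute (y i) (y j)) :
    ∃ ρ : (ι → ZMod q) → Q, ρ 0 = 1 ∧ (∀ u v, ρ (u + v) = ρ u * ρ v) ∧
      ∀ i, ρ (Pi.single i 1) = y i := by
  let f : ι → (ZMod q →+ Additive Q) := fun i =>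
    ZMod.lift q ⟨zmultiplesHom (Additive Q) (Additive.ofMul (y i)), by
      rw [zmultiplesHom_apply, natCast_zsmul, ← ofMul_pow, hy, ofMul_one]⟩
  have hf : ∀ i (n : ℕ), f i n = Additive.ofMul (y i ^ n) := by
    intro i n
    have h := ZMod.lift_coe q ⟨zmultiplesHom (Additive Q) (Additive.ofMul (y i)), by
      rw [zmultiplesHom_apply, natCast_zsmul, ← ofMul_pow, hy, ofMul_one]⟩ (n : ℤ)
    rw [Int.cast_natCast] at h
    refine h.trans ?_
    show (zmultiplesHom (Additive Q) (Additive.ofMul (y i))) (n : ℤ) = _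
    rw [zmultiplesHom_apply, natCast_zsmul, ← ofMul_pow]
  have hf' : ∀ i (c : ZMod q), f i c = Additive.ofMul (y i ^ c.val) := by
    intro i c
    rw [← hf, ZMod.natCast_zmod_val]
  have hcomm : Pairwise fun i j => ∀ x z, AddCommute (f i x) (f j z) := by
    intro i j _ x z
    rw [hf', hf']
    show _ + _ = _ + _
    rw [← ofMul_mul, ← ofMul_mul, ((hc i j).pow_pow _ _).eq]
  let F := AddMonoidHom.noncommPiCoprod f hcomm
  refine ⟨fun u => (F u).toMul, ?_, ?_, ?_⟩
  · simp
  · intro u v
    show (F (u + v)).toMul = (F u).toMul * (F v).toMul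
    rw [map_add]; rfl
  · intro i
    show (F (Pi.single i 1)).toMul = y i
    have h1 : F (Pi.single i 1) = f i 1 := AddMonoidHom.noncommPiCoprod_single f i 1
    rw [h1]
    have h2 := hf i 1
    rw [Nat.cast_one, pow_one] at h2
    rw [h2]; rfl

end pi

section rel

variable {l q : ℕ} [NeZero q] {Q : Type*} [Group Q]

/-- relations between two families of generators -/
structure TwoRel (q : ℕ) (x y : Fin l → Q) : Prop where
  xp : ∀ i, x i ^ q = 1
  yp : ∀ i, y i ^ q = 1
  xc : ∀ i j, Commute (x i) (x j)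
  yc : ∀ i j, Commute (y i) (y j)
  zx : ∀ i j k, Commute ⁅x i, y j⁆ (x k)
  zy : ∀ i j k, Commute ⁅x i, y j⁆ (y k)

variable {x y : Fin l → Q}

theorem TwoRel.zz (h : TwoRel q x y) (i j k m : Fin l) : Commute ⁅x i, y j⁆ ⁅x k, y m⁆ := by
  rw [commutatorElement_def (x k)]
  exact (((h.zx i j k).mul_right (h.zy i j m)).mul_right ((h.zx i j k).inv_right)).mul_right
    ((h.zy i j m).inv_right)

theorem TwoRel.zp (h : TwoRel q x y) (i j : Fin l) : ⁅x i, y j⁆ ^ q = 1 := by
  have h1 : x i * y j * (x i)⁻¹ = ⁅x i, y j⁆ * y j := by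
    rw [commutatorElement_def]; group
  have h2 : (x i * y j * (x i)⁻¹) ^ q = 1 := by
    rw [conj_pow, h.yp, mul_one, mul_inv_cancel]
  rw [h1, (h.zy i j j).mul_pow, h.yp, mul_one] at h2
  exact h2

theorem TwoRel.rel (h : TwoRel q x y) {ρ σ : (Fin l → ZMod q) → Q}
    {c : (Fin l × Fin l → ZMod q) → Q}
    (hρ0 : ρ 0 = 1) (hρ : ∀ u v, ρ (u + v) = ρ u * ρ v) (hρ1 : ∀ i, ρ (Pi.single i 1) = x i)
    (hσ0 : σ 0 = 1) (hσ : ∀ u v, σ (u + v) = σ u * σ v) (hσ1 : ∀ i, σ (Pi.single i 1) = y i)
    (hc0 : c 0 = 1) (hc : ∀ u v, c (u + v) = c u * c v)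
    (hc1 : ∀ p, c (Pi.single p 1) = ⁅x p.1, y p.2⁆) :
    (∀ M u, Commute (c M) (ρ u)) ∧ (∀ M w, Commute (c M) (σ w)) ∧
    ∀ u w, ρ u * σ w = c (tens u w) * (σ w * ρ u) := by
  have hcx : ∀ M k, Commute (c M) (x k) := by
    intro M k
    induction M using pi_induction with
    | h0 => rw [hc0]; exact Commute.one_left _
    | hadd u v hu hv => rw [hc]; exact hu.mul_left hv
    | h1 p => rw [hc1]; exact h.zx _ _ _
  have hcy : ∀ M k, Commute (c M) (y k) := by
    intro M k
    induction M using pi_induction with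
    | h0 => rw [hc0]; exact Commute.one_left _
    | hadd u v hu hv => rw [hc]; exact hu.mul_left hv
    | h1 p => rw [hc1]; exact h.zy _ _ _
  have hcρ : ∀ M u, Commute (c M) (ρ u) := by
    intro M u
    induction u using pi_induction with
    | h0 => rw [hρ0]; exact Commute.one_right _
    | hadd u v hu hv => rw [hρ]; exact hu.mul_right hv
    | h1 p => rw [hρ1]; exact hcx _ _
  have hcσ : ∀ M u, Commute (c M) (σ u) := by
    intro M u
    induction u using pi_induction with
    | h0 => rw [hσ0]; exact Commute.one_right _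
    | hadd u v hu hv => rw [hσ]; exact hu.mul_right hv
    | h1 p => rw [hσ1]; exact hcy _ _
  have step1 : ∀ j u, ρ u * y j = c (tens u (Pi.single j 1)) * (y j * ρ u) := by
    intro j u
    induction u using pi_induction with
    | h0 =>
      have : tens (0 : Fin l → ZMod q) (Pi.single j 1) = 0 := by ext p; simp [tens]
      rw [this, hc0, hρ0]; simp
    | hadd u v hu hv =>
      have : tens (u + v) (Pi.single j 1) = tens u (Pi.single j 1) + tens v (Pi.single j 1) := by
        ext p; simp [tens, add_mul]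
      rw [this, hc, hρ, mul_assoc, hv, ← mul_assoc (ρ u), ← (hcρ _ u).eq, mul_assoc,
        ← mul_assoc (ρ u), hu]
      have e1 : c (tens u (Pi.single j 1)) * c (tens v (Pi.single j 1)) =
          c (tens v (Pi.single j 1)) * c (tens u (Pi.single j 1)) := by
        rw [← hc, ← hc, add_comm]
      rw [e1]
      simp only [mul_assoc]
    | h1 i =>
      have : tens (Pi.single i 1 : Fin l → ZMod q) (Pi.single j 1) = Pi.single (i, j) 1 := by
        ext ⟨a, b⟩
        simp only [tens, Pi.single_apply, Prod.mk.injEq]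
        split_ifs <;> simp_all
      rw [this, hc1, hρ1, commutatorElement_def]
      group
  refine ⟨hcρ, hcσ, fun u w => ?_⟩
  induction w using pi_induction with
  | h0 =>
    have : tens u (0 : Fin l → ZMod q) = 0 := by ext p; simp [tens]
    rw [this, hc0, hσ0]; simp
  | hadd w w' hw hw' =>
    have : tens u (w + w') = tens u w + tens u w' := by
      ext p; simp [tens, mul_add]
    rw [this, hc, hσ, ← mul_assoc, hw]
    calc c (tens u w) * (σ w * ρ u) * σ w' = c (tens u w) * σ w * (ρ u * σ w') := by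
          simp only [mul_assoc]
      _ = c (tens u w) * σ w * (c (tens u w') * (σ w' * ρ u)) := by rw [hw']
      _ = c (tens u w) * (σ w * c (tens u w')) * (σ w' * ρ u) := by simp only [mul_assoc]
      _ = c (tens u w) * (c (tens u w') * σ w) * (σ w' * ρ u) := by rw [(hcσ _ w).eq]
      _ = _ := by simp only [mul_assoc]
  | h1 j => rw [hσ1]; exact step1 j u

end rel

section code

variable {l q : ℕ} [Fact q.Prime] {Q : Type*} [Group Q]

theorem pair_tens (B : Fin l × Fin l → ZMod q) (u w : Fin l → ZMod q) :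
    pair B (tens u w) = ∑ i, u i * ((Matrix.of fun i j => B (i, j)).mulVec w) i := by
  rw [pair, Fintype.sum_prod_type]
  refine Finset.sum_congr rfl fun i _ => ?_
  rw [Matrix.mulVec, dotProduct, Finset.mul_sum]
  refine Finset.sum_congr rfl fun j _ => ?_
  simp only [tens, Matrix.of_apply]
  ring

theorem card_rad (B : Fin l × Fin l → ZMod q) (hB : 8 ≤ (Matrix.of fun i j => B (i, j)).rank) :
    q ^ 8 * Nat.card {w : Fin l → ZMod q // ∀ u, pair B (tens u w) = 0} ≤ q ^ l := by
  set A : Matrix (Fin l) (Fin l) (ZMod q) := Matrix.of fun i j => B (i, j) with hA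
  have h1 : ∀ w : Fin l → ZMod q, (∀ u, pair B (tens u w) = 0) ↔
      w ∈ LinearMap.ker A.mulVecLin := by
    intro w
    rw [LinearMap.mem_ker, Matrix.mulVecLin_apply]
    constructor
    · intro h
      ext i
      have h2 := h (Pi.single i 1)
      rw [pair_tens, Finset.sum_eq_single i] at h2
      · rw [Pi.single_eq_same, one_mul] at h2
        exact h2
      · intro j _ hj
        rw [Pi.single_eq_of_ne hj, zero_mul]
      · intro h; exact absurd (Finset.mem_univ i) h
    · intro h u
      rw [pair_tens]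
      simp only [← hA, h, Pi.zero_apply, mul_zero, Finset.sum_const_zero]
  have h2 : Nat.card {w : Fin l → ZMod q // ∀ u, pair B (tens u w) = 0} =
      q ^ Module.finrank (ZMod q) (LinearMap.ker A.mulVecLin) := by
    rw [Nat.card_congr (Equiv.subtypeEquivRight h1)]
    have h3 := Module.natCard_eq_pow_finrank (K := ZMod q) (V := LinearMap.ker A.mulVecLin)
    rw [Nat.card_zmod] at h3
    exact h3
  have h4 := LinearMap.finrank_range_add_finrank_ker A.mulVecLin
  rw [Module.finrank_fin_fun] at h4
  have h5 : A.rank = Module.finrank (ZMod q) (LinearMap.range A.mulVecLin) := rfl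
  rw [h2, ← pow_add]
  have hq : 0 < q := (Fact.out : q.Prime).pos
  apply Nat.pow_le_pow_right hq
  omega

variable {x y : Fin l → Q}

/-- the rank condition gives the code condition -/
theorem code_of {c : (Fin l × Fin l → ZMod q) → Q} (hc0 : c 0 = 1)
    (hc : ∀ u v, c (u + v) = c u * c v) (hc1 : ∀ p, c (Pi.single p 1) = ⁅x p.1, y p.2⁆)
    (hcode : ∀ ψ : Subgroup.closure (Set.range fun p : Fin l × Fin l => ⁅x p.1, y p.2⁆) →*
      Multiplicative (ZMod q), ψ ≠ 1 → 8 ≤ (Matrix.of fun i j : Fin l =>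
        (ψ ⟨⁅x i, y j⁆, Subgroup.subset_closure ⟨(i, j), rfl⟩⟩).toAdd).rank)
    (B : Fin l × Fin l → ZMod q) (hB : B ≠ 0) (h : ∀ M, c M = 1 → pair B M = 0) :
    8 ≤ (Matrix.of fun i j => B (i, j)).rank := by
  classical
  have hneg : ∀ u, c (-u) = (c u)⁻¹ := fun u => by
    rw [eq_inv_iff_mul_eq_one, ← hc, neg_add_cancel, hc0]
  let R : Subgroup Q :=
    { carrier := Set.range c
      mul_mem' := by
        rintro _ _ ⟨u, rfl⟩ ⟨v, rfl⟩
        exact ⟨u + v, hc u v⟩
      one_mem' := ⟨0, hc0⟩
      inv_mem' := by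
        rintro _ ⟨u, rfl⟩
        exact ⟨-u, hneg u⟩ }
  have hle : Subgroup.closure (Set.range fun p : Fin l × Fin l => ⁅x p.1, y p.2⁆) ≤ R := by
    rw [Subgroup.closure_le]
    rintro _ ⟨p, rfl⟩
    exact ⟨Pi.single p 1, hc1 p⟩
  have hex : ∀ g : Subgroup.closure (Set.range fun p : Fin l × Fin l => ⁅x p.1, y p.2⁆),
      ∃ M, c M = g := fun g => hle g.2
  choose m hm using hex
  have hwd : ∀ M N, c M = c N → pair B M = pair B N := by
    intro M N hMN
    have h1 : c (M + -N) = 1 := by rw [hc, hneg, hMN, mul_inv_cancel]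
    have h2 := h _ h1
    rw [pair_add, pair_neg] at h2
    exact eq_of_sub_eq_zero (by rw [sub_eq_add_neg]; exact h2)
  let ψ : Subgroup.closure (Set.range fun p : Fin l × Fin l => ⁅x p.1, y p.2⁆) →*
      Multiplicative (ZMod q) :=
    { toFun := fun g => Multiplicative.ofAdd (pair B (m g))
      map_one' := by
        rw [← ofAdd_zero, ← pair_zero B]
        congr 1
        apply hwd
        rw [hm, hc0]; rfl
      map_mul' := fun g g' => by
        rw [← ofAdd_add, ← pair_add]
        congr 1
        apply hwd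
        rw [hm, hc, hm, hm]; rfl }
  have hψ : ∀ i j, (ψ ⟨⁅x i, y j⁆, Subgroup.subset_closure ⟨(i, j), rfl⟩⟩).toAdd = B (i, j) := by
    intro i j
    show pair B (m _) = _
    have h1 : pair B (m ⟨⁅x i, y j⁆, Subgroup.subset_closure ⟨(i, j), rfl⟩⟩) =
        pair B (Pi.single (i, j) 1) := by
      apply hwd
      rw [hm, hc1]
    rw [h1, pair_single, mul_one]
  have hne : ψ ≠ 1 := by
    intro h0
    apply hB
    ext ⟨i, j⟩
    rw [← hψ i j, h0]
    rfl
  have h8 := hcode ψ hne
  have e : (Matrix.of fun i j : Fin l =>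
        (ψ ⟨⁅x i, y j⁆, Subgroup.subset_closure ⟨(i, j), rfl⟩⟩).toAdd) =
        Matrix.of fun i j => B (i, j) := by
    ext i j
    exact hψ i j
  rw [e] at h8
  exact h8

end code

end Vale.Agent.P260.H117
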