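import Vale.Agent.P260.H117.Avg

/-! The pair inequality (angle `≤ 1/16`) for two elementary abelian groups generating a group of
class two (block D of P260). -/

open scoped ComplexConjugate

set_option linter.unusedSectionVars false

namespace Vale.Agent.P260.H117

section chars

variable {ι : Type*} [Fintype ι] [DecidableEq ι] {q : ℕ} [NeZero q]

/-- the pairing on `(ZMod q)^ι` -/
def pair (B M : ι → ZMod q) : ZMod q := ∑ p, B p * M p

theorem pair_add (B M N : ι → ZMod q) : pair B (M + N) = pair B M + pair B N := by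
  simp [pair, mul_add, Finset.sum_add_distrib]

theorem pair_neg (B M : ι → ZMod q) : pair B (-M) = - pair B M := by
  simp [pair]

theorem pair_sub_left (B C M : ι → ZMod q) : pair (B - C) M = pair B M - pair C M := by
  simp [pair, sub_mul, Finset.sum_sub_distrib]

theorem pair_add_left (B C M : ι → ZMod q) : pair (B + C) M = pair B M + pair C M := by
  simp [pair, add_mul, Finset.sum_add_distrib]

theorem pair_zero (B : ι → ZMod q) : pair B 0 = 0 := by simp [pair]

theorem pair_zero_left (B : ι → ZMod q) : pair 0 B = 0 := by simp [pair]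

theorem pair_single (B : ι → ZMod q) (i : ι) (c : ZMod q) :
    pair B (Pi.single i c) = B i * c := by
  rw [pair, Finset.sum_eq_single i]
  · rw [Pi.single_eq_same]
  · intro j _ hj; rw [Pi.single_eq_of_ne hj, mul_zero]
  · intro h; exact absurd (Finset.mem_univ i) h

theorem exists_pair_ne {B C : ι → ZMod q} (h : B ≠ C) : ∃ M, pair B M ≠ pair C M := by
  obtain ⟨i, hi⟩ := Function.ne_iff.1 h
  exact ⟨Pi.single i 1, by rw [pair_single, pair_single, mul_one, mul_one]; exact hi⟩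

theorem exists_pair_ne_left {M : ι → ZMod q} (h : M ≠ 0) : ∃ B, pair B M ≠ 0 := by
  obtain ⟨i, hi⟩ := Function.ne_iff.1 h
  refine ⟨Pi.single i 1, ?_⟩
  rw [pair, Finset.sum_eq_single i]
  · rw [Pi.single_eq_same, one_mul]; exact hi
  · intro j _ hj; rw [Pi.single_eq_of_ne hj, zero_mul]
  · intro h; exact absurd (Finset.mem_univ i) h

/-- the standard character -/
noncomputable def psi (q : ℕ) [NeZero q] : AddChar (ZMod q) ℂ := ZMod.stdAddChar

theorem psi_norm (x : ZMod q) : ‖psi q x‖ = 1 := AddChar.norm_apply _ _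

theorem psi_ne {x y : ZMod q} (h : x ≠ y) : psi q x ≠ psi q y := fun h' =>
  h (ZMod.injective_stdAddChar h')

theorem psi_sum_eq_zero (B : (ι → ZMod q) →+ ZMod q) (h : ∃ M, B M ≠ 0) :
    ∑ M, psi q (B M) = 0 := by
  set φ : AddChar (ι → ZMod q) ℂ := (psi q).compAddMonoidHom B with hφ
  have hne : φ ≠ 0 := by
    obtain ⟨M, hM⟩ := h
    intro h0
    have h1 : φ M = 1 := by rw [h0]; rfl
    have h2 : psi q (B M) = psi q 0 := by
      rw [AddChar.map_zero_eq_one]; exact h1
    exact psi_ne hM h2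
  have := AddChar.sum_eq_ite φ
  rw [if_neg hne] at this
  exact this

/-- the pairing as additive maps -/
def pairHom (B : ι → ZMod q) : (ι → ZMod q) →+ ZMod q where
  toFun := pair B
  map_zero' := pair_zero B
  map_add' := pair_add B

def pairHomLeft (M : ι → ZMod q) : (ι → ZMod q) →+ ZMod q where
  toFun B := pair B M
  map_zero' := pair_zero_left M
  map_add' := fun B C => pair_add_left B C M

end chars

section decomp

variable {H : Type*} [NormedAddCommGroup H] [InnerProductSpace ℂ H]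
variable {ι : Type*} [Fintype ι] [DecidableEq ι] {q : ℕ} [NeZero q]

/-- the component of a vector -/
noncomputable def comp (κ : (ι → ZMod q) → H ≃ₗᵢ[ℂ] H) (B : ι → ZMod q) (v : H) : H :=
  ((Fintype.card (ι → ZMod q) : ℂ))⁻¹ • ∑ M, psi q (-pair B M) • κ M v

variable {κ : (ι → ZMod q) → H ≃ₗᵢ[ℂ] H}

theorem kappa_comp (hκ : ∀ a b v, κ (a + b) v = κ a (κ b v)) (B M : ι → ZMod q) (v : H) :
    κ M (comp κ B v) = psi q (pair B M) • comp κ B v := by
  rw [comp, map_smul, map_sum, smul_comm]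
  congr 1
  rw [Finset.smul_sum]
  refine Fintype.sum_equiv (Equiv.addLeft M) _ _ fun x => ?_
  rw [map_smul, ← hκ, smul_smul, ← AddChar.map_add_eq_mul]
  simp only [Equiv.coe_addLeft]
  rw [pair_add]
  congr 2
  ring

theorem sum_comp (hκ : ∀ a b v, κ (a + b) v = κ a (κ b v)) (v : H) :
    ∑ B, comp κ B v = v := by
  simp only [comp]
  rw [← Finset.smul_sum, Finset.sum_comm]
  have h1 : ∀ M : ι → ZMod q, ∑ B : ι → ZMod q, psi q (-pair B M) • κ M v =
      if M = 0 then ((Fintype.card (ι → ZMod q) : ℂ)) • v else 0 := by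
    intro M
    rw [← Finset.sum_smul]
    split_ifs with h
    · subst h
      have h2 : ∀ B : ι → ZMod q, psi q (-pair B 0) = 1 := fun B => by
        rw [pair_zero, neg_zero, AddChar.map_zero_eq_one]
      simp_rw [h2]
      rw [Finset.sum_const, Finset.card_univ, nsmul_eq_mul, mul_one, tau_zero hκ]
    · have h2 : ∑ B : ι → ZMod q, psi q (-pair B M) = 0 := by
        have h3 := psi_sum_eq_zero (-(pairHomLeft M)) (by
          obtain ⟨B, hB⟩ := exists_pair_ne_left h
          exact ⟨B, by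
            show -(pair B M) ≠ 0
            exact neg_ne_zero.2 hB⟩)
        exact h3
      rw [h2, zero_smul]
  simp_rw [h1]
  rw [Finset.sum_ite_eq' Finset.univ, if_pos (Finset.mem_univ _), smul_smul,
    inv_mul_cancel₀, one_smul]
  have : Nonempty (ι → ZMod q) := ⟨0⟩
  exact_mod_cast Fintype.card_ne_zero

/-- vectors in different components are orthogonal -/
theorem inner_eq_zero {B C : ι → ZMod q} (h : B ≠ C) {x y : H}
    (hx : ∀ M, κ M x = psi q (pair B M) • x) (hy : ∀ M, κ M y = psi q (pair C M) • y) :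
    inner ℂ x y = 0 := by
  obtain ⟨M, hM⟩ := exists_pair_ne h
  have h1 := (κ M).inner_map_map x y
  rw [hx, hy, inner_smul_left, inner_smul_right] at h1
  by_contra hne
  have h2 : conj (psi q (pair B M)) * psi q (pair C M) = 1 := by
    have h3 : (conj (psi q (pair B M)) * psi q (pair C M)) * inner ℂ x y = 1 * inner ℂ x y := by
      rw [one_mul, mul_assoc]; exact h1
    exact mul_right_cancel₀ hne h3
  have h4 : psi q (pair B M) * conj (psi q (pair B M)) = 1 := by
    rw [Complex.mul_conj, Complex.normSq_eq_norm_sq, psi_norm]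
    norm_num
  have h5 : psi q (pair B M) = psi q (pair C M) := by
    calc psi q (pair B M) = psi q (pair B M) * (conj (psi q (pair B M)) * psi q (pair C M)) := by
          rw [h2, mul_one]
      _ = psi q (pair C M) := by rw [← mul_assoc, h4, one_mul]
  exact psi_ne hM h5

theorem inner_eq_sum (hκ : ∀ a b v, κ (a + b) v = κ a (κ b v)) (x y : H) :
    inner ℂ x y = ∑ B, inner ℂ (comp κ B x) (comp κ B y) := by
  conv_lhs => rw [← sum_comp hκ x, ← sum_comp hκ y]
  rw [sum_inner]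
  refine Finset.sum_congr rfl fun B _ => ?_
  rw [inner_sum, Finset.sum_eq_single B]
  · intro C _ hC
    exact inner_eq_zero (Ne.symm hC) (fun M => kappa_comp hκ B M x) fun M => kappa_comp hκ C M y
  · intro h; exact absurd (Finset.mem_univ B) h

theorem norm_sq_eq_sum (hκ : ∀ a b v, κ (a + b) v = κ a (κ b v)) (x : H) :
    ‖x‖ ^ 2 = ∑ B, ‖comp κ B x‖ ^ 2 := by
  have h := inner_eq_sum hκ x x
  simp_rw [inner_self_eq_norm_sq_to_K] at h
  exact_mod_cast h

theorem comp_avg {K : Type*} [AddGroup K] [Fintype K] {τ : K → H ≃ₗᵢ[ℂ] H}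
    (hc : ∀ M k v, κ M (τ k v) = τ k (κ M v)) (B : ι → ZMod q) (v : H) :
    comp κ B (avg τ v) = avg τ (comp κ B v) := by
  simp only [comp, map_smul, map_sum]
  congr 1
  refine Finset.sum_congr rfl fun M _ => ?_
  rw [avg_apply, avg_apply, map_smul, map_sum]
  simp_rw [hc]

theorem comp_sub (B : ι → ZMod q) (x y : H) :
    comp κ B (x - y) = comp κ B x - comp κ B y := by
  simp only [comp, map_sub, smul_sub, Finset.sum_sub_distrib]

end decomp

section two

variable {H : Type*} [NormedAddCommGroup H] [InnerProductSpace ℂ H]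
variable {l q : ℕ} [NeZero q]

/-- the elementary tensor -/
def tens (u w : Fin l → ZMod q) : Fin l × Fin l → ZMod q := fun p => u p.1 * w p.2

/-- data of two abelian groups generating a group of class two, acting unitarily. `R` is a set of
relations between the commutators. -/
structure PairData (τa τb : (Fin l → ZMod q) → H ≃ₗᵢ[ℂ] H)
    (κ : (Fin l × Fin l → ZMod q) → H ≃ₗᵢ[ℂ] H) : Prop where
  ha : ∀ a b v, τa (a + b) v = τa a (τa b v)
  hb : ∀ a b v, τb (a + b) v = τb a (τb b v)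
  hκ : ∀ a b v, κ (a + b) v = κ a (κ b v)
  ca : ∀ M k v, κ M (τa k v) = τa k (κ M v)
  cb : ∀ M k v, κ M (τb k v) = τb k (κ M v)
  rel : ∀ u w v, τa u (τb w v) = κ (tens u w) (τb w (τa u v))
  code : ∀ B : Fin l × Fin l → ZMod q, B ≠ 0 → (∀ M, (∀ v, κ M v = v) → pair B M = 0) →
    q ^ 8 * Nat.card {w : Fin l → ZMod q // ∀ u, pair B (tens u w) = 0} ≤ q ^ l

variable {τa τb : (Fin l → ZMod q) → H ≃ₗᵢ[ℂ] H} {κ : (Fin l × Fin l → ZMod q) → H ≃ₗᵢ[ℂ] H}

/-- the trivial component -/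
theorem pair_trivial (D : PairData τa τb κ) {x : H} (hx : ∀ M, κ M x = x) :
    0 ≤ RCLike.re (inner ℂ (x - avg τa x) (x - avg τb x)) := by
  -- the averages commute on fixed vectors of `κ`
  have hfix : ∀ (z : H), (∀ M, κ M z = z) → avg τa (avg τb z) = avg τb (avg τa z) := by
    intro z hz
    simp only [avg_apply, map_smul, map_sum]
    rw [← Finset.smul_sum, ← Finset.smul_sum, Finset.sum_comm]
    congr 2
    refine Finset.sum_congr rfl fun u _ => Finset.sum_congr rfl fun w _ => ?_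
    rw [D.rel, D.cb, D.ca, hz]
  have e1 : avg τa (avg τb x) = avg τb (avg τa x) := hfix x hx
  set z := x - avg τa x with hz
  have h1 := norm_sub_avg_sq D.hb z
  have h2 : avg τb z = avg τb x - avg τa (avg τb x) := by rw [hz, map_sub, e1]
  have h3 := norm_sub_avg_sq D.ha (avg τb x)
  rw [← h2] at h3
  have h4 : RCLike.re (inner ℂ z (x - avg τb x)) = ‖z - avg τb z‖ ^ 2 := by
    have h5 : inner ℂ z (x - avg τb x) = inner ℂ z (z - avg τb z) := by
      have h6 : inner ℂ z (avg τa x - avg τa (avg τb x)) = 0 := by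
        have h7 : avg τa x - avg τa (avg τb x) = avg τa (x - avg τb x) := by rw [map_sub]
        rw [h7, ← avg_symm D.ha, hz, map_sub, avg_idem D.ha, sub_self, inner_zero_left]
      have h8 : x - avg τb x = (z - avg τb z) + (avg τa x - avg τa (avg τb x)) := by
        rw [h2, hz]; abel
      rw [h8, inner_add_right, h6, add_zero]
    have h9 : inner ℂ z (z - avg τb z) = inner ℂ (z - avg τb z) (z - avg τb z) := by
      have h10 : inner ℂ (avg τb z) (z - avg τb z) = 0 := by
        rw [avg_symm D.hb, map_sub, avg_idem D.hb, sub_self, inner_zero_right]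
      conv_rhs => rw [inner_sub_left, h10, sub_zero]
    rw [h5, h9, inner_self_eq_norm_sq_to_K]
    norm_cast
  rw [h4]; positivity

/-- the small angle in a non-trivial component -/
theorem avg_avg_le (D : PairData τa τb κ) {B : Fin l × Fin l → ZMod q} (hB : B ≠ 0) {z : H}
    (hx : ∀ M, κ M z = psi q (pair B M) • z) (hz : ∀ u, τa u z = z) :
    ‖avg τa (avg τb z)‖ ≤ ((q : ℝ) ^ 8)⁻¹ * ‖z‖ := by
  classical
  by_cases hz0 : z = 0
  · rw [hz0, map_zero, map_zero, norm_zero, mul_zero]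
  have hcode := D.code B hB (fun M hM => by
    by_contra hne
    have h1 := hx M
    rw [hM z] at h1
    have h2 : psi q (pair B M) = 1 := by
      have h3 : (psi q (pair B M) - 1) • z = 0 := by rw [sub_smul, one_smul, ← h1, sub_self]
      rcases smul_eq_zero.1 h3 with h | h
      · exact sub_eq_zero.1 h
      · exact absurd h hz0
    exact psi_ne hne (h2.trans (AddChar.map_zero_eq_one _).symm))
  have h1 : ∀ w, avg τa (τb w z) = if (∀ u, pair B (tens u w) = 0) then τb w z else 0 := by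
    intro w
    have h2 : ∀ u, τa u (τb w z) = psi q (pair B (tens u w)) • τb w z := by
      intro u
      rw [D.rel, hz, D.cb, hx, map_smul]
    rw [avg_apply]
    simp_rw [h2]
    rw [← Finset.sum_smul]
    split_ifs with h
    · have h3 : ∀ u, psi q (pair B (tens u w)) = 1 := fun u => by
        rw [h u, AddChar.map_zero_eq_one]
      simp_rw [h3]
      rw [Finset.sum_const, Finset.card_univ, nsmul_eq_mul, mul_one, smul_smul,
        inv_mul_cancel₀ card_ne, one_smul]
    · push Not at h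
      let φ : (Fin l → ZMod q) →+ ZMod q :=
        { toFun := fun u => pair B (tens u w)
          map_zero' := by
            show pair B (tens 0 w) = 0
            have : tens (0 : Fin l → ZMod q) w = 0 := by ext p; simp [tens]
            rw [this, pair_zero]
          map_add' := fun u u' => by
            show pair B (tens (u + u') w) = pair B (tens u w) + pair B (tens u' w)
            have : tens (u + u') w = tens u w + tens u' w := by
              ext p; simp [tens, add_mul]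
            rw [this, pair_add] }
      have h3 : ∑ u, psi q (pair B (tens u w)) = 0 := psi_sum_eq_zero φ h
      rw [h3, zero_smul, smul_zero]
  have h2 : avg τa (avg τb z) = ((Fintype.card (Fin l → ZMod q) : ℂ))⁻¹ •
      ∑ w ∈ Finset.univ.filter (fun w : Fin l → ZMod q => ∀ u, pair B (tens u w) = 0),
        τb w z := by
    rw [avg_apply τb, map_smul, map_sum]
    simp_rw [h1]
    rw [Finset.sum_ite, Finset.sum_const_zero, add_zero]
  have h3 : ‖∑ w ∈ Finset.univ.filter (fun w : Fin l → ZMod q => ∀ u, pair B (tens u w) = 0),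
        τb w z‖ ≤ (Finset.univ.filter
          (fun w : Fin l → ZMod q => ∀ u, pair B (tens u w) = 0)).card * ‖z‖ := by
    refine (norm_sum_le _ _).trans ?_
    simp only [LinearIsometryEquiv.norm_map, Finset.sum_const, nsmul_eq_mul]
    exact le_rfl
  have h4 : (q ^ 8 * (Finset.univ.filter
      (fun w : Fin l → ZMod q => ∀ u, pair B (tens u w) = 0)).card : ℝ) ≤ q ^ l := by
    have h5 : Nat.card {w : Fin l → ZMod q // ∀ u, pair B (tens u w) = 0} = (Finset.univ.filter
      (fun w : Fin l → ZMod q => ∀ u, pair B (tens u w) = 0)).card := by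
      rw [Nat.card_eq_fintype_card, Fintype.card_subtype]
    rw [h5] at hcode
    exact_mod_cast hcode
  have hq : (0 : ℝ) < q := by exact_mod_cast Nat.pos_of_ne_zero (NeZero.ne q)
  have h6 : (Fintype.card (Fin l → ZMod q) : ℝ) = (q : ℝ) ^ l := by
    rw [Fintype.card_fun, ZMod.card, Fintype.card_fin]
    push_cast; rfl
  rw [h2, norm_smul, norm_inv, Complex.norm_natCast, h6]
  calc ((q : ℝ) ^ l)⁻¹ * _ ≤ ((q : ℝ) ^ l)⁻¹ * ((Finset.univ.filter
          (fun w : Fin l → ZMod q => ∀ u, pair B (tens u w) = 0)).card * ‖z‖) := by gcongr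
    _ ≤ ((q : ℝ) ^ 8)⁻¹ * ‖z‖ := by
        rw [← mul_assoc]
        gcongr
        rw [inv_mul_le_iff₀ (by positivity), ← div_eq_mul_inv, le_div_iff₀ (by positivity)]
        linarith

/-- the pair inequality in one component -/
theorem pair_comp (D : PairData τa τb κ) (hq2 : 2 ≤ q) {B : Fin l × Fin l → ZMod q} {x : H}
    (hx : ∀ M, κ M x = psi q (pair B M) • x) :
    -(1 / 16 : ℝ) * (‖x - avg τa x‖ ^ 2 + ‖x - avg τb x‖ ^ 2) ≤
      2 * RCLike.re (inner ℂ (x - avg τa x) (x - avg τb x)) := by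
  by_cases hB : B = 0
  · have h1 := pair_trivial D (x := x) (fun M => by
      rw [hx, hB, pair_zero_left, AddChar.map_zero_eq_one, one_smul])
    nlinarith [sq_nonneg ‖x - avg τa x‖, sq_nonneg ‖x - avg τb x‖]
  set z := avg τa x with hz
  have hzx : ∀ M, κ M z = psi q (pair B M) • z := by
    intro M
    rw [hz, avg_apply, map_smul, map_sum]
    simp_rw [D.ca, hx, map_smul]
    rw [← Finset.smul_sum, smul_comm]
  have h1 := avg_avg_le D hB hzx (fun u => avg_fix D.ha u x)
  have hq8 : ((q : ℝ) ^ 8)⁻¹ ≤ 1 / 256 := by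
    have : (2 : ℝ) ^ 8 ≤ (q : ℝ) ^ 8 := by
      gcongr; exact_mod_cast hq2
    rw [one_div]
    apply inv_anti₀ (by norm_num)
    calc (256 : ℝ) = 2 ^ 8 := by norm_num
      _ ≤ _ := this
  -- `‖R z‖² ≤ ‖z‖² / 256`
  have h2 : ‖avg τb z‖ ^ 2 ≤ 1 / 256 * ‖z‖ ^ 2 := by
    have e1 : ((‖avg τb z‖ ^ 2 : ℝ) : ℂ) = inner ℂ (avg τa (avg τb z)) z := by
      rw [avg_symm D.ha, hz, avg_idem D.ha, ← hz, norm_avg_sq D.hb]
    have e2 : ‖avg τb z‖ ^ 2 ≤ ‖avg τa (avg τb z)‖ * ‖z‖ := by
      have e3 := norm_inner_le_norm (𝕜 := ℂ) (avg τa (avg τb z)) z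
      rw [← e1, Complex.norm_real, Real.norm_of_nonneg (by positivity)] at e3
      exact e3
    calc ‖avg τb z‖ ^ 2 ≤ ‖avg τa (avg τb z)‖ * ‖z‖ := e2
      _ ≤ (((q : ℝ) ^ 8)⁻¹ * ‖z‖) * ‖z‖ := by gcongr
      _ ≤ (1 / 256 * ‖z‖) * ‖z‖ := by gcongr
      _ = _ := by ring
  have h3 : ‖avg τb z‖ ≤ 1 / 16 * ‖z‖ := by
    have : ‖avg τb z‖ ^ 2 ≤ (1 / 16 * ‖z‖) ^ 2 := by
      calc _ ≤ _ := h2
        _ = _ := by ring
    exact (sq_le_sq₀ (by positivity) (by positivity)).1 this
  set y := avg τb x with hy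
  set c := RCLike.re (inner ℂ z y) with hc
  have h4 : |c| ≤ 1 / 16 * (‖z‖ * ‖y‖) := by
    have e1 : inner ℂ z y = inner ℂ (avg τb z) y := by
      rw [avg_symm D.hb, hy, avg_idem D.hb]
    calc |c| ≤ ‖inner ℂ z y‖ := RCLike.abs_re_le_norm _
      _ = ‖inner ℂ (avg τb z) y‖ := by rw [e1]
      _ ≤ ‖avg τb z‖ * ‖y‖ := norm_inner_le_norm _ _
      _ ≤ (1 / 16 * ‖z‖) * ‖y‖ := by gcongr
      _ = _ := by ring
  have hp : RCLike.re (inner ℂ z x) = ‖z‖ ^ 2 := by
    rw [hz, norm_avg_sq D.ha]; exact Complex.ofReal_re _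
  have hr : RCLike.re (inner ℂ x y) = ‖y‖ ^ 2 := by
    rw [hy, norm_avg_sq' D.hb]; exact Complex.ofReal_re _
  have hr' : RCLike.re (inner ℂ y x) = ‖y‖ ^ 2 := by
    rw [hy, norm_avg_sq D.hb]; exact Complex.ofReal_re _
  have hn : RCLike.re (inner ℂ x x) = ‖x‖ ^ 2 := by
    rw [inner_self_eq_norm_sq (𝕜 := ℂ)]
  -- the angle bound `p + r ≤ (17/16) n`
  have h5 : ‖z + y‖ ^ 2 = ‖z‖ ^ 2 + 2 * c + ‖y‖ ^ 2 := @norm_add_sq ℂ H _ _ _ z y
  have h6 : 2 * c ≤ 1 / 16 * (‖z‖ ^ 2 + ‖y‖ ^ 2) := by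
    have := (abs_le.1 h4).2
    nlinarith [sq_nonneg (‖z‖ - ‖y‖)]
  have h7 : ‖z‖ ^ 2 + ‖y‖ ^ 2 ≤ ‖z + y‖ * ‖x‖ := by
    have e1 := @re_inner_le_norm ℂ H _ _ _ (z + y) x
    rw [inner_add_left, map_add, hp, hr'] at e1
    exact e1
  have h8 : ‖z‖ ^ 2 + ‖y‖ ^ 2 ≤ 17 / 16 * ‖x‖ ^ 2 := by
    set t := ‖z‖ ^ 2 + ‖y‖ ^ 2 with ht
    have ht0 : 0 ≤ t := by positivity
    have e1 : ‖z + y‖ ^ 2 ≤ 17 / 16 * t := by rw [h5]; linarith
    have e2 : t ^ 2 ≤ (17 / 16 * t) * ‖x‖ ^ 2 := by
      calc t ^ 2 ≤ (‖z + y‖ * ‖x‖) ^ 2 := by gcongr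
        _ = ‖z + y‖ ^ 2 * ‖x‖ ^ 2 := by ring
        _ ≤ _ := by gcongr
    rcases ht0.lt_or_eq with h | h
    · have : t * t ≤ (17 / 16 * ‖x‖ ^ 2) * t := by nlinarith
      exact le_of_mul_le_mul_right this h
    · rw [← h]; positivity
  -- `‖A x‖² ≥ 0`, `A = 17/16 - (P + R)`
  have h9 : 0 ≤ (17 / 16) ^ 2 * ‖x‖ ^ 2 - 2 * (17 / 16) * (‖z‖ ^ 2 + ‖y‖ ^ 2) +
      (‖z‖ ^ 2 + 2 * c + ‖y‖ ^ 2) := by
    have e1 : ‖((17 / 16 : ℝ) : ℂ) • x - (z + y)‖ ^ 2 =
        (17 / 16) ^ 2 * ‖x‖ ^ 2 - 2 * (17 / 16) * (‖z‖ ^ 2 + ‖y‖ ^ 2) +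
      (‖z‖ ^ 2 + 2 * c + ‖y‖ ^ 2) := by
      rw [@norm_sub_sq ℂ H, ← h5, norm_smul, Complex.norm_real, inner_smul_left,
        Complex.conj_ofReal, inner_add_right]
      have e2 : RCLike.re (((17 / 16 : ℝ) : ℂ) * (inner ℂ x z + inner ℂ x y)) =
          17 / 16 * (‖z‖ ^ 2 + ‖y‖ ^ 2) := by
        have e3 : inner ℂ x z = ((‖z‖ ^ 2 : ℝ) : ℂ) := by rw [hz, norm_avg_sq' D.ha]
        have e4 : inner ℂ x y = ((‖y‖ ^ 2 : ℝ) : ℂ) := by rw [hy, norm_avg_sq' D.hb]
        rw [e3, e4, ← Complex.ofReal_add, ← Complex.ofReal_mul]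
        exact Complex.ofReal_re _
      rw [e2, Real.norm_of_nonneg (by norm_num)]
      ring
    rw [← e1]; positivity
  have h10 : RCLike.re (inner ℂ (x - z) (x - y)) = ‖x‖ ^ 2 - ‖y‖ ^ 2 - ‖z‖ ^ 2 + c := by
    rw [inner_sub_left, inner_sub_right, inner_sub_right]
    simp only [map_sub]
    rw [hn, hr, hp]
    ring
  have h11 := norm_sub_avg_sq D.ha x
  have h12 := norm_sub_avg_sq D.hb x
  rw [← hz] at h11
  rw [← hy] at h12
  rw [h10, h11, h12]
  nlinarith

/-- **the pair inequality.** -/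
theorem pair_ineq (D : PairData τa τb κ) (hq2 : 2 ≤ q) (x : H) :
    -(1 / 16 : ℝ) * (‖x - avg τa x‖ ^ 2 + ‖x - avg τb x‖ ^ 2) ≤
      2 * RCLike.re (inner ℂ (x - avg τa x) (x - avg τb x)) := by
  rw [norm_sq_eq_sum D.hκ (x - avg τa x), norm_sq_eq_sum D.hκ (x - avg τb x),
    inner_eq_sum D.hκ (x - avg τa x), map_sum, ← Finset.sum_add_distrib, Finset.mul_sum,
    Finset.mul_sum]
  refine Finset.sum_le_sum fun B _ => ?_
  rw [comp_sub, comp_sub, comp_avg D.ca, comp_avg D.cb]
  exact pair_comp D hq2 fun M => kappa_comp D.hκ B M x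

end two

end Vale.Agent.P260.H117
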